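import Mathlib.Topology.Homotopy.Lifting

/-!
# P300, block [LM]: lifts of a uniformization to a covering (abstract part)

`q : A → X` is open, `A` is simply connected, and `q a = q b` iff `b = τ g a` for some `g : G`.
For a covering `p : Z → X` over the range of `q` we study the lifts `F : A → Z` of `q`:
their ranges are the components of `p ⁻¹' range q`, and `F a = F b` iff `b = τ g a` with `g` in
the lattice `Lat`.
-/

open Set Topology Function

set_option linter.unusedSectionVars false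

namespace Vale.Agent.P300.H844

variable {A X Z : Type*} [TopologicalSpace A] [TopologicalSpace X] [TopologicalSpace Z]
  {G : Type*} [AddGroup G]

/-- `q : A → X` is an open map whose fibres are the orbits of `τ`. -/
structure Unif (q : A → X) (τ : G → A → A) : Prop where
  cont : Continuous q
  op : IsOpenMap q
  τc : ∀ g, Continuous (τ g)
  τ0 : ∀ a, τ 0 a = a
  τadd : ∀ g h a, τ (g + h) a = τ g (τ h a)
  eq_iff : ∀ a b, q a = q b ↔ ∃ g, b = τ g a

namespace Unif

variable {q : A → X} {τ : G → A → A} (U : Unif q τ)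
include U

theorem q_τ (g : G) (a : A) : q (τ g a) = q a := ((U.eq_iff a _).2 ⟨g, rfl⟩).symm

theorem τ_neg (g : G) (a : A) : τ (-g) (τ g a) = a := by
  rw [← U.τadd, neg_add_cancel, U.τ0]

theorem τ_neg' (g : G) (a : A) : τ g (τ (-g) a) = a := by
  rw [← U.τadd, add_neg_cancel, U.τ0]

end Unif

/-- `F` is a lift of `q` through `p`. -/
structure IsLift (p : Z → X) (q : A → X) (F : A → Z) : Prop where
  cont : Continuous F
  comp : ∀ a, p (F a) = q a

/-- The lattice of a lift. -/
def Lat {τ : G → A → A} {q : A → X} (U : Unif q τ) (F : A → Z) : AddSubgroup G where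
  carrier := {g | ∀ a, F (τ g a) = F a}
  add_mem' := by
    intro g h hg hh a
    rw [U.τadd, hg, hh]
  zero_mem' := by intro a; rw [U.τ0]
  neg_mem' := by
    intro g hg a
    rw [← hg (τ (-g) a), U.τ_neg']

theorem mem_Lat {τ : G → A → A} {q : A → X} {U : Unif q τ} {F : A → Z} {g : G} :
    g ∈ Lat U F ↔ ∀ a, F (τ g a) = F a := Iff.rfl

section

variable [SimplyConnectedSpace A] [LocallyPathConnectedSpace A]
variable {p : Z → X} {q : A → X} {τ : G → A → A}

omit [AddGroup G] in
/-- Existence of lifts. -/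
theorem exists_lift (hq : Continuous q) (hp : IsCoveringMapOn p (range q)) {a : A} {z : Z}
    (h : p z = q a) : ∃ F, IsLift p q F ∧ F a = z := by
  obtain ⟨F, ⟨hF, hF'⟩, -⟩ := hp.existsUnique_continuousMap_lifts ⟨q, hq⟩ h (fun a => ⟨a, rfl⟩)
  exact ⟨F, ⟨F.continuous, fun b => congrFun hF' b⟩, hF⟩

omit [AddGroup G] in
/-- Uniqueness of lifts. -/
theorem lift_unique (hq : Continuous q) (hp : IsCoveringMapOn p (range q)) {F F' : A → Z}
    (hF : IsLift p q F) (hF' : IsLift p q F') {a : A} (h : F a = F' a) : F = F' := by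
  obtain ⟨F₀, -, hu⟩ := hp.existsUnique_continuousMap_lifts ⟨q, hq⟩ (a₀ := a) (e₀ := F a)
    (hF.comp a) (fun a => ⟨a, rfl⟩)
  have h1 := hu ⟨F, hF.cont⟩ ⟨rfl, funext hF.comp⟩
  have h2 := hu ⟨F', hF'.cont⟩ ⟨h.symm, funext hF'.comp⟩
  have h3 := h1.trans h2.symm
  exact congrArg DFunLike.coe h3

variable (U : Unif q τ)
include U

omit [SimplyConnectedSpace A] [LocallyPathConnectedSpace A] in
theorem IsLift.comp_τ {F : A → Z} (hF : IsLift p q F) (g : G) :
    IsLift p q (fun a => F (τ g a)) :=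
  ⟨hF.cont.comp (U.τc g), fun a => by rw [hF.comp, U.q_τ]⟩

/-- One value is enough. -/
theorem mem_Lat_of_eq (hp : IsCoveringMapOn p (range q)) {F : A → Z} (hF : IsLift p q F) {g : G}
    {a : A} (h : F (τ g a) = F a) : g ∈ Lat U F := by
  have := lift_unique U.cont hp (hF.comp_τ U g) hF h
  exact fun b => congrFun this b

theorem eq_iff_Lat (hp : IsCoveringMapOn p (range q)) {F : A → Z} (hF : IsLift p q F) (a b : A) :
    F a = F b ↔ ∃ g ∈ Lat U F, b = τ g a := by
  constructor
  · intro h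
    have h1 : q a = q b := by rw [← hF.comp, ← hF.comp, h]
    obtain ⟨g, rfl⟩ := (U.eq_iff a b).1 h1
    exact ⟨g, mem_Lat_of_eq U hp hF h.symm, rfl⟩
  · rintro ⟨g, hg, rfl⟩
    exact (hg a).symm

omit [SimplyConnectedSpace A] [LocallyPathConnectedSpace A] in
/-- Lifts are open maps. -/
theorem IsLift.isOpenMap (hp : IsCoveringMapOn p (range q)) {F : A → Z} (hF : IsLift p q F) :
    IsOpenMap F := by
  intro O hO
  rw [isOpen_iff_mem_nhds]
  rintro _ ⟨a, ha, rfl⟩
  have hl := hp.isLocalHomeomorphOn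
  obtain ⟨e, he, hpe⟩ := hl (F a) ⟨a, (hF.comp a).symm⟩
  -- neighbourhood of `a` mapped into the source
  have hO' : IsOpen (O ∩ F ⁻¹' e.source) := hO.inter (e.open_source.preimage hF.cont)
  have h1 : IsOpen (q '' (O ∩ F ⁻¹' e.source)) := U.op _ hO'
  have h2 : F a ∈ e.source ∩ e ⁻¹' (q '' (O ∩ F ⁻¹' e.source)) := by
    refine ⟨he, a, ⟨ha, he⟩, ?_⟩
    rw [← hpe, hF.comp]
  have h3 : IsOpen (e.source ∩ e ⁻¹' (q '' (O ∩ F ⁻¹' e.source))) :=
    e.continuousOn.isOpen_inter_preimage e.open_source h1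
  refine Filter.mem_of_superset (h3.mem_nhds h2) ?_
  rintro w ⟨hw, b, ⟨hb, hb'⟩, hbw⟩
  have : e (F b) = e w := by rw [← hbw, ← hpe, hF.comp]
  exact ⟨b, hb, e.injOn hb' hw this⟩

/-- Two lifts with a common value differ by some `τ g`. -/
theorem lift_eq_comp (hp : IsCoveringMapOn p (range q)) {F F' : A → Z} (hF : IsLift p q F)
    (hF' : IsLift p q F') {a b : A} (h : F a = F' b) : ∃ g, F = fun c => F' (τ g c) := by
  have h1 : q a = q b := by rw [← hF.comp, ← hF'.comp, h]
  obtain ⟨g, rfl⟩ := (U.eq_iff a b).1 h1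
  exact ⟨g, lift_unique U.cont hp hF (hF'.comp_τ U g) h⟩

theorem range_eq_of_meet (hp : IsCoveringMapOn p (range q)) {F F' : A → Z} (hF : IsLift p q F)
    (hF' : IsLift p q F') {a b : A} (h : F a = F' b) : range F = range F' := by
  obtain ⟨g, rfl⟩ := lift_eq_comp U hp hF hF' h
  apply Subset.antisymm
  · rintro _ ⟨c, rfl⟩
    exact ⟨τ g c, rfl⟩
  · rintro _ ⟨c, rfl⟩
    exact ⟨τ (-g) c, by simp only [U.τ_neg']⟩

omit U in
theorem IsLift.range_subset {F : A → Z} (hF : IsLift p q F) : range F ⊆ p ⁻¹' range q := by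
  rintro _ ⟨a, rfl⟩
  exact ⟨a, (hF.comp a).symm⟩

/-- The part of the lift over `S ⊆ range q` is a component of `p ⁻¹' S` if `q ⁻¹' S` is
connected. -/
theorem image_eq_component (hp : IsCoveringMapOn p (range q)) {F : A → Z} (hF : IsLift p q F)
    {S : Set X} (hS : IsOpen S) (hSq : S ⊆ range q) (hc : IsPreconnected (q ⁻¹' S)) {a : A}
    (ha : q a ∈ S) : connectedComponentIn (p ⁻¹' S) (F a) = F '' (q ⁻¹' S) := by
  have hsub : F '' (q ⁻¹' S) ⊆ p ⁻¹' S := by
    rintro _ ⟨b, hb, rfl⟩
    rw [mem_preimage, hF.comp]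
    exact hb
  apply Subset.antisymm
  · -- the image is clopen in `p ⁻¹' S`
    have hpc : IsPreconnected (connectedComponentIn (p ⁻¹' S) (F a)) :=
      isPreconnected_connectedComponentIn
    have ho : IsOpen (F '' (q ⁻¹' S)) := hF.isOpenMap U hp _ (hS.preimage U.cont)
    -- the complement in `p ⁻¹' S` is open
    set V : Set Z := ⋃ (F' : A → Z) (_ : IsLift p q F') (_ : range F ≠ range F'),
      F' '' (q ⁻¹' S) with hV
    have hVo : IsOpen V := by
      refine isOpen_iUnion fun F' => isOpen_iUnion fun hF' => isOpen_iUnion fun _ => ?_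
      exact hF'.isOpenMap U hp _ (hS.preimage U.cont)
    have hcov : p ⁻¹' S ⊆ F '' (q ⁻¹' S) ∪ V := by
      intro w hw
      obtain ⟨b, hb⟩ := hSq hw
      obtain ⟨F', hF', hF'b⟩ := exists_lift U.cont hp (a := b) (z := w) hb.symm
      by_cases h : range F = range F'
      · left
        have : w ∈ range F := h ▸ ⟨b, hF'b⟩
        obtain ⟨c, rfl⟩ := this
        exact ⟨c, by rw [mem_preimage, ← hF.comp]; exact hw, rfl⟩
      · right
        simp only [hV, mem_iUnion]
        exact ⟨F', hF', h, b, by rw [mem_preimage, hb]; exact hw, hF'b⟩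
    have hdis : F '' (q ⁻¹' S) ∩ V = ∅ := by
      rw [eq_empty_iff_forall_notMem]
      rintro w ⟨⟨b, hb, rfl⟩, hw⟩
      simp only [hV, mem_iUnion] at hw
      obtain ⟨F', hF', hne, c, hc', hcb⟩ := hw
      exact hne (range_eq_of_meet U hp hF hF' hcb.symm)
    have hss : connectedComponentIn (p ⁻¹' S) (F a) ⊆ p ⁻¹' S := connectedComponentIn_subset _ _
    have hmem : F a ∈ connectedComponentIn (p ⁻¹' S) (F a) :=
      mem_connectedComponentIn (by rw [mem_preimage, hF.comp]; exact ha)
    rcases isPreconnected_iff_subset_of_disjoint.1 hpc _ _ ho hVo (hss.trans hcov)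
      (by rw [hdis, inter_empty]) with h | h
    · exact h
    · exfalso
      have h1 : F a ∈ F '' (q ⁻¹' S) ∩ V := ⟨⟨a, ha, rfl⟩, h hmem⟩
      rw [hdis] at h1
      exact h1
  · refine IsPreconnected.subset_connectedComponentIn (hc.image _ hF.cont.continuousOn)
      ⟨a, ha, rfl⟩ hsub

/-- The range of a lift is a component. -/
theorem range_eq_component (hp : IsCoveringMapOn p (range q)) {F : A → Z} (hF : IsLift p q F)
    (a : A) : connectedComponentIn (p ⁻¹' range q) (F a) = range F := by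
  have h := image_eq_component U hp hF (S := range q) U.op.isOpen_range Subset.rfl
    (by rw [preimage_range]; exact isPreconnected_univ) (a := a) ⟨a, rfl⟩
  rw [h, preimage_range, image_univ]

/-- The model of the component. -/
theorem exists_model (hp : IsCoveringMapOn p (range q)) {F : A → Z} (hF : IsLift p q F)
    {M : Type*} [TopologicalSpace M] {ψ : A → M} (hψc : Continuous ψ) (hψo : IsOpenMap ψ)
    (hψs : Surjective ψ) (hψ : ∀ a b, ψ a = ψ b ↔ ∃ g ∈ Lat U F, b = τ g a) :
    ∃ h : M → Z, IsOpenEmbedding h ∧ (∀ a, h (ψ a) = F a) ∧ range h = range F := by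
  have hwd : ∀ a b, ψ a = ψ b ↔ F a = F b := fun a b =>
    (hψ a b).trans (eq_iff_Lat U hp hF a b).symm
  let h : M → Z := fun m => F (surjInv hψs m)
  have hh : ∀ a, h (ψ a) = F a := fun a => (hwd _ _).1 (surjInv_eq hψs (ψ a))
  have hq : IsQuotientMap ψ := hψo.isQuotientMap hψc hψs
  have hc : Continuous h := by
    rw [hq.continuous_iff]
    exact hF.cont.congr fun a => (hh a).symm
  have hi : Injective h := by
    intro m m' hmm
    obtain ⟨a, rfl⟩ := hψs m
    obtain ⟨b, rfl⟩ := hψs m'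
    rw [hh, hh] at hmm
    exact (hwd a b).2 hmm
  have ho : IsOpenMap h := by
    intro O hO
    have : h '' O = F '' (ψ ⁻¹' O) := by
      ext w
      constructor
      · rintro ⟨m, hm, rfl⟩
        obtain ⟨a, rfl⟩ := hψs m
        exact ⟨a, hm, (hh a).symm⟩
      · rintro ⟨a, ha, rfl⟩
        exact ⟨ψ a, ha, hh a⟩
    rw [this]
    exact hF.isOpenMap U hp _ (hO.preimage hψc)
  refine ⟨h, IsOpenEmbedding.of_continuous_injective_isOpenMap hc hi ho, hh, ?_⟩
  ext w
  constructor
  · rintro ⟨m, rfl⟩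
    obtain ⟨a, rfl⟩ := hψs m
    exact ⟨a, (hh a).symm⟩
  · rintro ⟨a, rfl⟩
    exact ⟨ψ a, hh a⟩

end

end Vale.Agent.P300.H844
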