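import Vale.Agent.P300.ASM.GroupHom
import Vale.Agent.P300.H921.TorMod
import Vale.Agent.P300.H242.YVal

/-!
# P300 (superseded by ASM/XF.lean): the lifts of the tower over helper921's / helper242's charts (helper844)

`Spec.kapU ν.castSucc` and `Mod.kapU ν` agree on the region; `Lifts.congr`, `LHom.congr` change the
table; `DD hN n`, `dHom` are the lifts and the maps of the tower for `Mod.kapU`.
-/

open Set Topology Filter Complex
open Vale.Agent.P300.H753

namespace Vale.Agent.P300.XSide

theorem node_congr {R : Set (ℂ × ℂ)} {US U S : Type} [TopologicalSpace US] [TopologicalSpace U]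
    {pr : US → U} {kap kap' : ℂ × ℂ → U} {a b : Equiv.Perm S} {L : ℂ → ℂ → S → US}
    (h : ∀ w ∈ Rp R, kap w = kap' w) (N : Node R pr kap a b L) : Node R pr kap' a b L := by
  have hE : ∀ z ∈ Rt R, kap (exp z.1, exp z.2) = kap' (exp z.1, exp z.2) := fun z hz =>
    h _ ⟨hz, exp_ne_zero _, exp_ne_zero _⟩
  exact
    { opR := N.opR
      kinj := fun w hw w' hw' e => N.kinj hw hw' (by rw [h w hw, h w' hw', e])
      kopen := fun V hV hVo => by
        rw [← image_congr fun w hw => h w (hV hw)]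
        exact N.kopen V hV hVo
      loc := N.loc
      comm := N.comm
      Lcont := N.Lcont
      Lpr := fun z hz s => (N.Lpr z hz s).trans (hE z hz)
      La := N.La
      Lb := N.Lb
      Linj := N.Linj
      Lsurj := fun z hz y hy => N.Lsurj z hz y (hy.trans (hE z hz).symm) }

variable {R : Set (ℂ × ℂ)} {ι U X0 S : Type} [TopologicalSpace X0] [TopologicalSpace U]
  {kap kap' : ι → ℂ × ℂ → U} {pr : X0 → U}

/-- the same lifts for another table which agrees on the region -/
def liftsCongr (h : ∀ ν, ∀ w ∈ Rp R, kap ν w = kap' ν w) (D : Mod.Lifts R kap pr S) :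
    Mod.Lifts R kap' pr S where
  a := D.a
  b := D.b
  L := D.L
  p := D.p
  q := D.q
  node ν := node_congr (h ν) (D.node ν)
  ord := D.ord

theorem lHomCongr {X0' S' : Type} [TopologicalSpace X0'] {pr' : X0' → U}
    (h : ∀ ν, ∀ w ∈ Rp R, kap ν w = kap' ν w) {D' : Mod.Lifts R kap pr' S'}
    {D : Mod.Lifts R kap pr S} {f : S' → S} {g : X0' → X0} (H : LHom D' D f g) :
    LHom (liftsCongr h D') (liftsCongr h D) f g where
  ha := H.ha
  hb := H.hb
  hp := H.hp
  hq := H.hq
  hL := H.hL
  hpr := H.hpr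

theorem kapU_eq (ν : Fin 15) (w : ℂ × ℂ) (hw : w ∈ Rp H142.R) :
    (Spec.kapU ν.castSucc w : TOR.Arr.UT) = Mod.kapU ν w := by
  apply Subtype.ext
  rw [Spec.kapU_coe _ (Spec.Rp_subset_W hw), Spec.kapE_castSucc]
  exact (Mod.kapU_val (Mod.Rp_subset_W hw)).symm

end Vale.Agent.P300.XSide

namespace Vale.Agent.P300.XSide

open Vale.Agent.P300.ASM

/-- the projection of the level `n` to `U` -/
noncomputable def prU (n : ℕ) : rE.Tot (F n) → H142.U := rE.pr

variable (hN : Spec.NodeSpec rE)

/-- **The lifts of the level `n`** (helper921's input for helper242's `yData`). -/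
noncomputable def DD (n : ℕ) : Mod.Lifts H142.R Mod.kapU (prU n) (F n) :=
  XSide.liftsCongr (kap := fun ν : Fin 15 => Spec.kapU ν.castSucc) (pr := prU n) XSide.kapU_eq
    (lifts hN n)

theorem DD_a (n : ℕ) (ν : Fin 15) (s : F n) : (DD hN n).a ν s = H708.arrE.wa ν.castSucc • s := rfl

theorem DD_b (n : ℕ) (ν : Fin 15) (s : F n) : (DD hN n).b ν s = H708.arrE.wb ν.castSucc • s := rfl

theorem DD_p (n : ℕ) (ν : Fin 15) (s : F n) : (DD hN n).p ν s = p n ν.castSucc s := rfl

theorem DD_q (n : ℕ) (ν : Fin 15) (s : F n) : (DD hN n).q ν s = q n ν.castSucc s := rfl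

theorem DD_L (n : ℕ) (ν : Fin 15) (z w : ℂ) (s : F n) :
    (DD hN n).L ν z w s = (Spec.lifts hN ν.castSucc).L (F n) (z, w) s := rfl

variable {n n' : ℕ}

/-- **The maps of the tower.** -/
theorem dHom (h : n ≤ n') : H753.LHom (DD hN n') (DD hN n) (pj h) (g h) :=
  XSide.lHomCongr (kap := fun ν : Fin 15 => Spec.kapU ν.castSucc) (pr := prU n) (pr' := prU n')
    XSide.kapU_eq (lHom hN h)

end Vale.Agent.P300.XSide
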