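import Vale.Agent.P300.H844.Abs
import Mathlib.Analysis.SpecialFunctions.Complex.LogDeriv
import Mathlib.Analysis.Convex.Contractible
import Mathlib.Topology.Algebra.Module.LocallyConvex
import Mathlib.Analysis.Normed.Module.Convex
import Mathlib.Analysis.Complex.Convex

/-!
# P300, block [LM]: local models of coverings of punctured polydiscs

Flag `b = true`: punctured disc, `b = false`: disc. `N = Pd b₁ ρ₁ ×ˢ Pd b₂ ρ₂`,
`κ : ℂ × ℂ → X` with `N.domRestrict κ` an open embedding, `p : Z → X` a covering over `κ '' N`.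
-/

open Set Topology Function Metric
open scoped Real

set_option linter.unusedSectionVars false

namespace Vale.Agent.P300.H844

/-- half plane or disc -/
def Rg (b : Bool) (ρ : ℝ) : Set ℂ := bif b then {z | z.re < Real.log ρ} else {z | ‖z‖ < ρ}

/-- punctured disc or disc -/
def Pd (b : Bool) (ρ : ℝ) : Set ℂ := bif b then {z | z ≠ 0 ∧ ‖z‖ < ρ} else {z | ‖z‖ < ρ}

/-- exponential or identity -/
noncomputable def ex (b : Bool) (z : ℂ) : ℂ := bif b then Complex.exp z else z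

/-- translation by `2 π i n` or identity -/
noncomputable def tr (b : Bool) (n : ℤ) (z : ℂ) : ℂ :=
  bif b then z + n * (2 * π * Complex.I) else z

/-- `exp (z / i)` or identity -/
noncomputable def md (b : Bool) (i : ℕ) (z : ℂ) : ℂ := bif b then Complex.exp (z / i) else z

section factor

variable {b : Bool} {ρ : ℝ}

theorem isOpen_Rg : IsOpen (Rg b ρ) := by
  cases b
  · exact isOpen_lt continuous_norm continuous_const
  · exact isOpen_lt Complex.continuous_re continuous_const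

theorem isOpen_Pd : IsOpen (Pd b ρ) := by
  cases b
  · exact isOpen_lt continuous_norm continuous_const
  · exact isOpen_ne.inter (isOpen_lt continuous_norm continuous_const)

theorem convex_Rg : Convex ℝ (Rg b ρ) := by
  cases b
  · have : Rg false ρ = ball 0 ρ := by ext z; simp [Rg]
    rw [this]
    exact convex_ball _ _
  · exact convex_halfSpace_re_lt _

theorem nonempty_Rg (hρ : 0 < ρ) : (Rg b ρ).Nonempty := by
  cases b
  · exact ⟨0, by simpa [Rg] using hρ⟩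
  · exact ⟨((Real.log ρ - 1 : ℝ) : ℂ), by simp [Rg]⟩

theorem continuous_ex : Continuous (ex b) := by
  cases b
  · exact continuous_id
  · exact Complex.continuous_exp

theorem isOpenMap_ex : IsOpenMap (ex b) := by
  cases b
  · exact IsOpenMap.id
  · exact Complex.isOpenMap_exp

theorem continuous_tr (n : ℤ) : Continuous (tr b n) := by
  cases b
  · exact continuous_id
  · exact continuous_id.add continuous_const

theorem tr_zero (z : ℂ) : tr b 0 z = z := by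
  cases b <;> simp [tr]

theorem tr_add (m n : ℤ) (z : ℂ) : tr b (m + n) z = tr b m (tr b n z) := by
  cases b
  · rfl
  · simp only [tr, cond_true]
    push_cast
    ring

theorem re_tr (n : ℤ) (z : ℂ) : (tr true n z).re = z.re := by
  simp [tr]

theorem tr_mem {n : ℤ} {z : ℂ} (hz : z ∈ Rg b ρ) : tr b n z ∈ Rg b ρ := by
  cases b
  · exact hz
  · change (tr true n z).re < _
    rw [re_tr]
    exact hz

theorem ex_mem_iff (hρ : 0 < ρ) {z : ℂ} : ex b z ∈ Pd b ρ ↔ z ∈ Rg b ρ := by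
  cases b
  · exact Iff.rfl
  · simp only [ex, Pd, Rg, cond_true, mem_ofPred_eq, Complex.norm_exp]
    rw [Real.lt_log_iff_exp_lt hρ]
    exact ⟨fun h => h.2, fun h => ⟨Complex.exp_ne_zero _, h⟩⟩

theorem exists_ex (hρ : 0 < ρ) {w : ℂ} (hw : w ∈ Pd b ρ) : ∃ z ∈ Rg b ρ, ex b z = w := by
  cases b
  · exact ⟨w, hw, rfl⟩
  · have h : ex true (Complex.log w) = w := Complex.exp_log hw.1
    exact ⟨Complex.log w, (ex_mem_iff hρ).1 (h.symm ▸ hw), h⟩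

theorem ex_eq_iff (z w : ℂ) : ex b z = ex b w ↔ ∃ n : ℤ, w = tr b n z := by
  cases b
  · simp only [ex, tr, cond_false]
    exact ⟨fun h => ⟨0, h.symm⟩, fun ⟨_, h⟩ => h.symm⟩
  · simp only [ex, tr, cond_true]
    rw [eq_comm, Complex.exp_eq_exp_iff_exists_int]

theorem continuous_md (i : ℕ) : Continuous (md b i) := by
  cases b
  · exact continuous_id
  · exact Complex.continuous_exp.comp (continuous_id.div_const _)

theorem isOpenMap_md {i : ℕ} (hi : i ≠ 0) : IsOpenMap (md b i) := by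
  cases b
  · exact IsOpenMap.id
  · have h : IsOpenMap fun z : ℂ => z / i := by
      have := (Homeomorph.mulRight₀ ((i : ℂ)⁻¹) (by simpa using hi)).isOpenMap
      simpa [div_eq_mul_inv] using this
    exact Complex.isOpenMap_exp.comp h

theorem md_pow {i : ℕ} (hi : i ≠ 0) (hb : b = false → i = 1) (z : ℂ) : md b i z ^ i = ex b z := by
  cases b
  · rw [hb rfl, pow_one]; rfl
  · simp only [md, ex, cond_true]
    rw [← Complex.exp_nat_mul]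
    congr 1
    field_simp

theorem md_eq_iff {i : ℕ} (hi : i ≠ 0) (z w : ℂ) :
    md b i z = md b i w ↔ ∃ n : ℤ, w = tr b (i * n) z := by
  cases b
  · simp only [md, tr, cond_false]
    exact ⟨fun h => ⟨0, h.symm⟩, fun ⟨_, h⟩ => h.symm⟩
  · simp only [md, tr, cond_true]
    have hi' : (i : ℂ) ≠ 0 := by exact_mod_cast hi
    rw [eq_comm, Complex.exp_eq_exp_iff_exists_int]
    constructor
    · rintro ⟨n, hn⟩
      refine ⟨n, ?_⟩
      rw [div_eq_iff hi'] at hn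
      rw [hn]
      push_cast
      field_simp
    · rintro ⟨n, rfl⟩
      refine ⟨n, ?_⟩
      push_cast
      field_simp

theorem exists_md (hρ : 0 < ρ) {i : ℕ} (hi : i ≠ 0) (hb : b = false → i = 1) {r : ℂ}
    (hr : r ^ i ∈ Pd b ρ) : ∃ z ∈ Rg b ρ, md b i z = r := by
  cases b
  · rw [hb rfl, pow_one] at hr
    exact ⟨r, hr, rfl⟩
  · have hr0 : r ≠ 0 := by
      rintro rfl
      exact hr.1 (zero_pow hi)
    have hi' : (i : ℂ) ≠ 0 := by exact_mod_cast hi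
    have h1 : md true i (i * Complex.log r) = r := by
      simp only [md, cond_true]
      rw [mul_div_cancel_left₀ _ hi', Complex.exp_log hr0]
    refine ⟨i * Complex.log r, ?_, h1⟩
    rw [← ex_mem_iff hρ, ← md_pow hi (by simp), h1]
    exact hr

end factor

/-- the punctured polydisc -/
def PN (b₁ b₂ : Bool) (ρ₁ ρ₂ : ℝ) : Set (ℂ × ℂ) := Pd b₁ ρ₁ ×ˢ Pd b₂ ρ₂

/-- the simply connected cover -/
abbrev PA (b₁ b₂ : Bool) (ρ₁ ρ₂ : ℝ) : Type := ↥(Rg b₁ ρ₁ ×ˢ Rg b₂ ρ₂)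

/-- the model over `PN` with exponents `i, j` -/
def PM (b₁ b₂ : Bool) (ρ₁ ρ₂ : ℝ) (i j : ℕ) : Set (ℂ × ℂ) :=
  {r | r.1 ^ i ∈ Pd b₁ ρ₁ ∧ r.2 ^ j ∈ Pd b₂ ρ₂}

section

variable {b₁ b₂ : Bool} {ρ₁ ρ₂ : ℝ} {X Z : Type*} [TopologicalSpace X] [TopologicalSpace Z]

theorem isOpen_PN : IsOpen (PN b₁ b₂ ρ₁ ρ₂) := isOpen_Pd.prod isOpen_Pd

theorem isOpen_PM {i j : ℕ} : IsOpen (PM b₁ b₂ ρ₁ ρ₂ i j) :=
  (isOpen_Pd.preimage (continuous_fst.pow i)).inter (isOpen_Pd.preimage (continuous_snd.pow j))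

theorem isOpen_PA : IsOpen (Rg b₁ ρ₁ ×ˢ Rg b₂ ρ₂) := isOpen_Rg.prod isOpen_Rg

instance : LocallyPathConnectedSpace (PA b₁ b₂ ρ₁ ρ₂) := isOpen_PA.locallyPathConnectedSpace

theorem simplyConnected_PA (h₁ : 0 < ρ₁) (h₂ : 0 < ρ₂) :
    SimplyConnectedSpace (PA b₁ b₂ ρ₁ ρ₂) := by
  have hc : Convex ℝ (Rg b₁ ρ₁ ×ˢ Rg b₂ ρ₂) := convex_Rg.prod convex_Rg
  have := hc.contractibleSpace ((nonempty_Rg h₁).prod (nonempty_Rg h₂))
  exact SimplyConnectedSpace.ofContractible _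

/-- the uniformization -/
noncomputable def qq (κ : ℂ × ℂ → X) (z : PA b₁ b₂ ρ₁ ρ₂) : X := κ (ex b₁ z.1.1, ex b₂ z.1.2)

/-- the translations -/
noncomputable def tt (g : ℤ × ℤ) (z : PA b₁ b₂ ρ₁ ρ₂) : PA b₁ b₂ ρ₁ ρ₂ :=
  ⟨(tr b₁ g.1 z.1.1, tr b₂ g.2 z.1.2), tr_mem z.2.1, tr_mem z.2.2⟩

theorem ex_mem (h₁ : 0 < ρ₁) (h₂ : 0 < ρ₂) (z : PA b₁ b₂ ρ₁ ρ₂) :
    (ex b₁ z.1.1, ex b₂ z.1.2) ∈ PN b₁ b₂ ρ₁ ρ₂ :=
  ⟨(ex_mem_iff h₁).2 z.2.1, (ex_mem_iff h₂).2 z.2.2⟩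

theorem unif (h₁ : 0 < ρ₁) (h₂ : 0 < ρ₂) {κ : ℂ × ℂ → X}
    (hκ : IsOpenEmbedding ((PN b₁ b₂ ρ₁ ρ₂).domRestrict κ)) :
    Unif (qq κ : PA b₁ b₂ ρ₁ ρ₂ → X) tt where
  cont := by
    have h : Continuous fun z : PA b₁ b₂ ρ₁ ρ₂ =>
        (⟨(ex b₁ z.1.1, ex b₂ z.1.2), ex_mem h₁ h₂ z⟩ : PN b₁ b₂ ρ₁ ρ₂) := by
      refine Continuous.subtype_mk ?_ _
      exact (continuous_ex.comp (continuous_fst.comp continuous_subtype_val)).prodMk
        (continuous_ex.comp (continuous_snd.comp continuous_subtype_val))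
    exact hκ.continuous.comp h
  op := by
    intro O hO
    have h1 : IsOpen (Subtype.val '' O) := isOpen_PA.isOpenMap_subtype_val _ hO
    have h2 : IsOpen (Prod.map (ex b₁) (ex b₂) '' (Subtype.val '' O)) :=
      (isOpenMap_ex.prodMap isOpenMap_ex) _ h1
    have h3 : qq κ '' O = (PN b₁ b₂ ρ₁ ρ₂).domRestrict κ ''
        (Subtype.val ⁻¹' (Prod.map (ex b₁) (ex b₂) '' (Subtype.val '' O))) := by
      ext w
      constructor
      · rintro ⟨z, hz, rfl⟩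
        exact ⟨⟨_, ex_mem h₁ h₂ z⟩, ⟨z.1, ⟨z, hz, rfl⟩, rfl⟩, rfl⟩
      · rintro ⟨⟨y, hy⟩, ⟨_, ⟨z, hz, rfl⟩, hzy⟩, rfl⟩
        refine ⟨z, hz, ?_⟩
        change κ _ = κ y
        rw [show y = _ from hzy.symm]
        rfl
    rw [h3]
    exact hκ.isOpenMap _ (h2.preimage continuous_subtype_val)
  τc := by
    intro g
    refine Continuous.subtype_mk ?_ _
    exact ((continuous_tr _).comp (continuous_fst.comp continuous_subtype_val)).prodMk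
      ((continuous_tr _).comp (continuous_snd.comp continuous_subtype_val))
  τ0 := by
    intro a
    apply Subtype.ext
    exact Prod.ext (tr_zero _) (tr_zero _)
  τadd := by
    intro g h a
    apply Subtype.ext
    exact Prod.ext (tr_add _ _ _) (tr_add _ _ _)
  eq_iff := by
    intro a c
    have h : qq κ a = qq κ c ↔ (ex b₁ a.1.1, ex b₂ a.1.2) = (ex b₁ c.1.1, ex b₂ c.1.2) := by
      constructor
      · intro h
        have := hκ.injective (a₁ := ⟨_, ex_mem h₁ h₂ a⟩) (a₂ := ⟨_, ex_mem h₁ h₂ c⟩) h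
        exact congrArg Subtype.val this
      · intro h
        change κ _ = κ _
        rw [h]
    rw [h, Prod.ext_iff]
    simp only
    rw [ex_eq_iff, ex_eq_iff]
    constructor
    · rintro ⟨⟨m, hm⟩, ⟨n, hn⟩⟩
      exact ⟨(m, n), Subtype.ext (Prod.ext hm hn)⟩
    · rintro ⟨g, rfl⟩
      exact ⟨⟨g.1, rfl⟩, ⟨g.2, rfl⟩⟩

theorem range_qq (h₁ : 0 < ρ₁) (h₂ : 0 < ρ₂) (κ : ℂ × ℂ → X) :
    range (qq κ : PA b₁ b₂ ρ₁ ρ₂ → X) = κ '' PN b₁ b₂ ρ₁ ρ₂ := by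
  ext w
  constructor
  · rintro ⟨z, rfl⟩
    exact ⟨_, ex_mem h₁ h₂ z, rfl⟩
  · rintro ⟨⟨y₁, y₂⟩, ⟨hy₁, hy₂⟩, rfl⟩
    obtain ⟨z₁, hz₁, rfl⟩ := exists_ex h₁ hy₁
    obtain ⟨z₂, hz₂, rfl⟩ := exists_ex h₂ hy₂
    exact ⟨⟨(z₁, z₂), hz₁, hz₂⟩, rfl⟩

/-- The map onto the model. -/
noncomputable def mm (i j : ℕ) (z : PA b₁ b₂ ρ₁ ρ₂) : ℂ × ℂ := (md b₁ i z.1.1, md b₂ j z.1.2)

theorem mm_mem (h₁ : 0 < ρ₁) (h₂ : 0 < ρ₂) {i j : ℕ} (hi : i ≠ 0) (hj : j ≠ 0)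
    (hbi : b₁ = false → i = 1) (hbj : b₂ = false → j = 1) (z : PA b₁ b₂ ρ₁ ρ₂) :
    mm i j z ∈ PM b₁ b₂ ρ₁ ρ₂ i j := by
  refine ⟨?_, ?_⟩
  · change md b₁ i z.1.1 ^ i ∈ _
    rw [md_pow hi hbi, ex_mem_iff h₁]
    exact z.2.1
  · change md b₂ j z.1.2 ^ j ∈ _
    rw [md_pow hj hbj, ex_mem_iff h₂]
    exact z.2.2

/-- **Local model of a covering of a punctured polydisc.** -/
theorem exists_local_model (h₁ : 0 < ρ₁) (h₂ : 0 < ρ₂) {κ : ℂ × ℂ → X}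
    (hκ : IsOpenEmbedding ((PN b₁ b₂ ρ₁ ρ₂).domRestrict κ)) {p : Z → X}
    (hp : IsCoveringMapOn p (κ '' PN b₁ b₂ ρ₁ ρ₂)) {F : PA b₁ b₂ ρ₁ ρ₂ → Z}
    (hF : IsLift p (qq κ) F) {i j : ℕ} (hi : i ≠ 0) (hj : j ≠ 0)
    (hbi : b₁ = false → i = 1) (hbj : b₂ = false → j = 1)
    (hL : ∀ m n : ℤ, (m, n) ∈ Lat (unif h₁ h₂ hκ) F ↔ (i : ℤ) ∣ m ∧ (j : ℤ) ∣ n) :
    ∃ h : ℂ × ℂ → Z, IsOpenEmbedding ((PM b₁ b₂ ρ₁ ρ₂ i j).domRestrict h) ∧
      (∀ z, h (mm i j z) = F z) ∧ (∀ r ∈ PM b₁ b₂ ρ₁ ρ₂ i j, p (h r) = κ (r.1 ^ i, r.2 ^ j)) ∧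
      h '' PM b₁ b₂ ρ₁ ρ₂ i j = range F ∧
      ∀ r ∈ PM b₁ b₂ ρ₁ ρ₂ i j,
        connectedComponentIn (p ⁻¹' (κ '' PN b₁ b₂ ρ₁ ρ₂)) (h r) = range F := by
  have := simplyConnected_PA (b₁ := b₁) (b₂ := b₂) h₁ h₂
  have U := unif h₁ h₂ hκ
  have hr := range_qq (b₁ := b₁) (b₂ := b₂) h₁ h₂ κ
  have hp' : IsCoveringMapOn p (range (qq κ : PA b₁ b₂ ρ₁ ρ₂ → X)) := by rw [hr]; exact hp
  let ψ : PA b₁ b₂ ρ₁ ρ₂ → PM b₁ b₂ ρ₁ ρ₂ i j :=
    fun z => ⟨mm i j z, mm_mem h₁ h₂ hi hj hbi hbj z⟩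
  have hψc : Continuous ψ := by
    refine Continuous.subtype_mk ?_ _
    exact ((continuous_md i).comp (continuous_fst.comp continuous_subtype_val)).prodMk
      ((continuous_md j).comp (continuous_snd.comp continuous_subtype_val))
  have hψo : IsOpenMap ψ := by
    intro O hO
    have h1 : IsOpen (Subtype.val '' O) := isOpen_PA.isOpenMap_subtype_val _ hO
    have h2 : IsOpen (Prod.map (md b₁ i) (md b₂ j) '' (Subtype.val '' O)) :=
      ((isOpenMap_md hi).prodMap (isOpenMap_md hj)) _ h1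
    have h3 : ψ '' O = Subtype.val ⁻¹' (Prod.map (md b₁ i) (md b₂ j) '' (Subtype.val '' O)) := by
      ext w
      constructor
      · rintro ⟨z, hz, rfl⟩
        exact ⟨z.1, ⟨z, hz, rfl⟩, rfl⟩
      · rintro ⟨_, ⟨z, hz, rfl⟩, hzy⟩
        exact ⟨z, hz, Subtype.ext hzy⟩
    rw [h3]
    exact h2.preimage continuous_subtype_val
  have hψs : Surjective ψ := by
    rintro ⟨⟨r₁, r₂⟩, hr₁, hr₂⟩
    obtain ⟨z₁, hz₁, e₁⟩ := exists_md h₁ hi hbi hr₁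
    obtain ⟨z₂, hz₂, e₂⟩ := exists_md h₂ hj hbj hr₂
    exact ⟨⟨(z₁, z₂), hz₁, hz₂⟩, Subtype.ext (Prod.ext e₁ e₂)⟩
  have hψ : ∀ a c, ψ a = ψ c ↔ ∃ g ∈ Lat U F, c = tt g a := by
    intro a c
    have h : ψ a = ψ c ↔ (∃ m : ℤ, c.1.1 = tr b₁ (i * m) a.1.1) ∧
        ∃ n : ℤ, c.1.2 = tr b₂ (j * n) a.1.2 := by
      rw [Subtype.ext_iff, ← md_eq_iff hi, ← md_eq_iff hj]
      exact Prod.ext_iff
    rw [h]
    constructor
    · rintro ⟨⟨m, hm⟩, ⟨n, hn⟩⟩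
      exact ⟨(i * m, j * n), (hL _ _).2 ⟨dvd_mul_right _ _, dvd_mul_right _ _⟩,
        Subtype.ext (Prod.ext hm hn)⟩
    · rintro ⟨⟨g₁, g₂⟩, hg, rfl⟩
      obtain ⟨⟨m, hm⟩, ⟨n, hn⟩⟩ := (hL _ _).1 hg
      subst hm hn
      exact ⟨⟨m, rfl⟩, ⟨n, rfl⟩⟩
  obtain ⟨h, hho, hhF, hhr⟩ := exists_model U hp' hF hψc hψo hψs hψ
  have a₀ : PA b₁ b₂ ρ₁ ρ₂ := Classical.choice inferInstance
  classical
  let h' : ℂ × ℂ → Z := fun r => if hr : r ∈ PM b₁ b₂ ρ₁ ρ₂ i j then h ⟨r, hr⟩ else F a₀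
  have hh' : ∀ r (hr : r ∈ PM b₁ b₂ ρ₁ ρ₂ i j), h' r = h ⟨r, hr⟩ := fun r hr => dif_pos hr
  have hre : (PM b₁ b₂ ρ₁ ρ₂ i j).domRestrict h' = h := by
    funext r
    exact hh' r.1 r.2
  have hh1 : ∀ z, h' (mm i j z) = F z := fun z => by
    rw [hh' _ (mm_mem h₁ h₂ hi hj hbi hbj z)]
    exact hhF z
  refine ⟨h', by rw [hre]; exact hho, hh1, ?_, ?_, ?_⟩
  · intro r hr
    obtain ⟨z, hz⟩ := hψs ⟨r, hr⟩
    have hz' : mm i j z = r := congrArg Subtype.val hz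
    rw [← hz', hh1, hF.comp]
    change κ _ = κ (md b₁ i z.1.1 ^ i, md b₂ j z.1.2 ^ j)
    rw [md_pow hi hbi, md_pow hj hbj]
  · rw [← hhr, ← hre]
    ext w
    constructor
    · rintro ⟨r, hr, rfl⟩
      exact ⟨⟨r, hr⟩, rfl⟩
    · rintro ⟨r, rfl⟩
      exact ⟨r.1, r.2, rfl⟩
  · intro r hr
    obtain ⟨z, hz⟩ := hψs ⟨r, hr⟩
    have hz' : mm i j z = r := congrArg Subtype.val hz
    have := range_eq_component U hp' hF z
    rw [range_qq h₁ h₂] at this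
    rw [← hz', hh1]
    exact this

end

end Vale.Agent.P300.H844
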