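import Vale.Agent.P300.H844.Abs
import Mathlib.Analysis.SpecialFunctions.Complex.LogDeriv
import Mathlib.Analysis.Convex.Contractible
import Mathlib.Analysis.Normed.Module.Convex
import Mathlib.Analysis.Complex.Convex
import Mathlib.Analysis.Normed.Module.Connected
import Mathlib.Topology.LocalAtTarget
import Mathlib.Topology.Algebra.Module.LocallyConvex
import Mathlib.Topology.Homotopy.Contractible

/-!
# P300, block [LM]: the region `RR = {(u,v) : u, v, uv ∉ [1,∞)}` and its logarithmic cover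

`RT = {(z,w) : (e^z,e^w) ∈ RR}` is open and contractible; `Om p q = {(r,t) : (r^p,t^q) ∈ RR}`.
-/

open Set Topology Function Filter
open scoped Real

set_option linter.unusedSectionVars false

namespace Vale.Agent.P300.H844

/-- the ray `[1, ∞)` -/
def Ray : Set ℂ := {z | 1 ≤ z.re ∧ z.im = 0}

theorem isClosed_Ray : IsClosed Ray :=
  (isClosed_le continuous_const Complex.continuous_re).inter
    (isClosed_eq Complex.continuous_im continuous_const)

/-- the region -/
def RR : Set (ℂ × ℂ) := {z | z.1 ∉ Ray ∧ z.2 ∉ Ray ∧ z.1 * z.2 ∉ Ray}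

theorem isOpen_RR : IsOpen RR := by
  have h := isClosed_Ray.isOpen_compl
  exact (h.preimage continuous_fst).inter ((h.preimage continuous_snd).inter
    (h.preimage (continuous_fst.mul continuous_snd)))

theorem ray_of_mul {c : ℝ} (h0 : 0 < c) (h1 : c ≤ 1) {u : ℂ} (h : (c : ℂ) * u ∈ Ray) :
    u ∈ Ray := by
  obtain ⟨h2, h3⟩ := h
  simp only [Complex.mul_re, Complex.ofReal_re, Complex.ofReal_im, zero_mul, sub_zero] at h2
  simp only [Complex.mul_im, Complex.ofReal_re, Complex.ofReal_im, zero_mul, add_zero,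
    mul_eq_zero] at h3
  refine ⟨?_, ?_⟩
  · by_contra hlt
    push Not at hlt
    nlinarith
  · rcases h3 with h3 | h3
    · exact absurd h3 h0.ne'
    · exact h3

theorem RR_smul {c d : ℝ} (hc : 0 < c) (hc1 : c ≤ 1) (hd : 0 < d) (hd1 : d ≤ 1) {z : ℂ × ℂ}
    (hz : z ∈ RR) : ((c : ℂ) * z.1, (d : ℂ) * z.2) ∈ RR := by
  refine ⟨fun h => hz.1 (ray_of_mul hc hc1 h), fun h => hz.2.1 (ray_of_mul hd hd1 h), fun h => ?_⟩
  refine hz.2.2 (ray_of_mul (mul_pos hc hd) (mul_le_one₀ hc1 hd.le hd1) ?_)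
  convert h using 1
  push_cast
  ring

theorem notMem_Ray {z : ℂ} (h : ‖z‖ < 1) : z ∉ Ray := fun hz =>
  absurd (hz.1.trans ((le_abs_self _).trans (Complex.abs_re_le_norm z))) (not_le.2 h)

theorem mem_RR_of_norm {z : ℂ × ℂ} (h1 : ‖z.1‖ < 1) (h2 : ‖z.2‖ < 1) : z ∈ RR := by
  refine ⟨notMem_Ray h1, notMem_Ray h2, notMem_Ray ?_⟩
  rw [norm_mul]
  exact mul_lt_one_of_nonneg_of_lt_one_left (norm_nonneg _) h1 h2.le

theorem zero_mem_RR : (0 : ℂ × ℂ) ∈ RR := mem_RR_of_norm (by simp) (by simp)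

/-- the logarithmic cover of the region -/
def RT : Set (ℂ × ℂ) := {z | (Complex.exp z.1, Complex.exp z.2) ∈ RR}

theorem continuous_ee : Continuous fun z : ℂ × ℂ => (Complex.exp z.1, Complex.exp z.2) := by
  fun_prop

theorem isOpen_RT : IsOpen RT := isOpen_RR.preimage continuous_ee

theorem mem_RT {z : ℂ × ℂ} (h1 : z.1.re < 0) (h2 : z.2.re < 0) : z ∈ RT := by
  refine mem_RR_of_norm ?_ ?_ <;> simpa [Complex.norm_exp] using by assumption

theorem RT_sub {z : ℂ × ℂ} (hz : z ∈ RT) {s t : ℝ} (hs : 0 ≤ s) (ht : 0 ≤ t) :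
    (z.1 - s, z.2 - t) ∈ RT := by
  have h := RR_smul (c := Real.exp (-s)) (d := Real.exp (-t)) (Real.exp_pos _)
    (Real.exp_le_one_iff.2 (by linarith)) (Real.exp_pos _) (Real.exp_le_one_iff.2 (by linarith)) hz
  change (Complex.exp (z.1 - s), Complex.exp (z.2 - t)) ∈ RR
  convert h using 2
  · rw [Complex.ofReal_exp, ← Complex.exp_add]
    congr 1
    push_cast
    ring
  · rw [Complex.ofReal_exp, ← Complex.exp_add]
    congr 1
    push_cast
    ring

/-- the height -/
noncomputable def ht (z : ℂ × ℂ) : ℝ := |z.1.re| + |z.2.re| + 1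

theorem ht_nonneg (z : ℂ × ℂ) : 0 ≤ ht z := by unfold ht; positivity

theorem continuous_ht : Continuous ht := by
  unfold ht
  fun_prop

/-- the convex part -/
def CC : Set (ℂ × ℂ) := {z | z.1.re ≤ -1 ∧ z.2.re ≤ -1}

theorem convex_CC : Convex ℝ CC :=
  ((convex_halfSpace_re_le (-1)).is_linear_preimage (f := Prod.fst) ⟨fun _ _ => rfl, fun _ _ => rfl⟩).inter
    ((convex_halfSpace_re_le (-1)).is_linear_preimage (f := Prod.snd)
      ⟨fun _ _ => rfl, fun _ _ => rfl⟩)

instance : ContractibleSpace CC :=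
  convex_CC.contractibleSpace ⟨(-1, -1), by simp [CC]⟩

instance contractible_RT : ContractibleSpace RT := by
  rw [contractible_iff_id_nullhomotopic]
  let ι : C(CC, RT) := ⟨fun z => ⟨z.1, mem_RT (by linarith [z.2.1]) (by linarith [z.2.2])⟩,
    continuous_subtype_val.subtype_mk _⟩
  have hr : ∀ z : ℂ × ℂ, (z.1 - (ht z : ℂ), z.2 - (ht z : ℂ)) ∈ CC := by
    intro z
    simp only [CC, ht, mem_ofPred_eq, Complex.sub_re, Complex.ofReal_re]
    have h1 := le_abs_self z.1.re
    have h2 := le_abs_self z.2.re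
    have h3 := abs_nonneg z.1.re
    have h4 := abs_nonneg z.2.re
    constructor <;> linarith
  have hh : Continuous fun z : RT => (ht z.1 : ℂ) :=
    Complex.continuous_ofReal.comp (continuous_ht.comp continuous_subtype_val)
  let r : C(RT, CC) := ⟨fun z => ⟨(z.1.1 - (ht z.1 : ℂ), z.1.2 - (ht z.1 : ℂ)), hr z.1⟩, by
    refine Continuous.subtype_mk ?_ _
    exact ((continuous_fst.comp continuous_subtype_val).sub hh).prodMk
      ((continuous_snd.comp continuous_subtype_val).sub hh)⟩
  have h1 : (ι.comp r).Nullhomotopic := by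
    have h2 := (id_nullhomotopic CC).comp_left r
    exact h2.comp_right ι
  obtain ⟨y, hy⟩ := h1
  refine ⟨y, ContinuousMap.Homotopic.trans ?_ hy⟩
  refine ⟨⟨⟨fun p => ⟨(p.2.1.1 - ((p.1 : ℝ) * ht p.2.1 : ℝ), p.2.1.2 - ((p.1 : ℝ) * ht p.2.1 : ℝ)),
    RT_sub p.2.2 (mul_nonneg p.1.2.1 (ht_nonneg _)) (mul_nonneg p.1.2.1 (ht_nonneg _))⟩, ?_⟩,
    ?_, ?_⟩⟩
  · refine Continuous.subtype_mk ?_ _
    have h3 : Continuous fun p : unitInterval × RT => (((p.1 : ℝ) * ht p.2.1 : ℝ) : ℂ) :=
      Complex.continuous_ofReal.comp ((continuous_subtype_val.comp continuous_fst).mul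
        (continuous_ht.comp (continuous_subtype_val.comp continuous_snd)))
    exact ((continuous_fst.comp (continuous_subtype_val.comp continuous_snd)).sub h3).prodMk
      ((continuous_snd.comp (continuous_subtype_val.comp continuous_snd)).sub h3)
  · intro x
    apply Subtype.ext
    simp
  · intro x
    apply Subtype.ext
    simp [ι, r]

instance : SimplyConnectedSpace RT := SimplyConnectedSpace.ofContractible _

instance : LocallyPathConnectedSpace RT := isOpen_RT.locallyPathConnectedSpace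

/-- translations -/
noncomputable def trz (g : ℤ × ℤ) (z : RT) : RT :=
  ⟨(z.1.1 + g.1 * (2 * π * Complex.I), z.1.2 + g.2 * (2 * π * Complex.I)), by
    change (Complex.exp _, Complex.exp _) ∈ RR
    have h : ∀ (n : ℤ) (w : ℂ), Complex.exp (w + n * (2 * π * Complex.I)) = Complex.exp w := by
      intro n w
      rw [Complex.exp_add, Complex.exp_int_mul_two_pi_mul_I, mul_one]
    rw [h, h]
    exact z.2⟩

/-- the punctured region -/
def R0 : Set (ℂ × ℂ) := {z | z ∈ RR ∧ z.1 ≠ 0 ∧ z.2 ≠ 0}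

theorem isOpen_R0 : IsOpen R0 :=
  isOpen_RR.inter ((isOpen_ne.preimage continuous_fst).inter (isOpen_ne.preimage continuous_snd))

variable {X Z : Type*} [TopologicalSpace X] [TopologicalSpace Z]

/-- the uniformization -/
noncomputable def qR (κ : ℂ × ℂ → X) (z : RT) : X := κ (Complex.exp z.1.1, Complex.exp z.1.2)

theorem ee_mem (z : RT) : (Complex.exp z.1.1, Complex.exp z.1.2) ∈ R0 :=
  ⟨z.2, Complex.exp_ne_zero _, Complex.exp_ne_zero _⟩

theorem range_qR (κ : ℂ × ℂ → X) : range (qR κ) = κ '' R0 := by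
  ext w
  constructor
  · rintro ⟨z, rfl⟩
    exact ⟨_, ee_mem z, rfl⟩
  · rintro ⟨⟨y₁, y₂⟩, ⟨h, h1, h2⟩, rfl⟩
    have e1 : Complex.exp (Complex.log y₁) = y₁ := Complex.exp_log h1
    have e2 : Complex.exp (Complex.log y₂) = y₂ := Complex.exp_log h2
    refine ⟨⟨(Complex.log y₁, Complex.log y₂), ?_⟩, ?_⟩
    · change (Complex.exp _, Complex.exp _) ∈ RR
      simpa only [e1, e2] using h
    · change κ (Complex.exp _, Complex.exp _) = _
      simp only [e1, e2]

theorem unifR {κ : ℂ × ℂ → X} (hκ : IsOpenEmbedding (R0.domRestrict κ)) :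
    Unif (qR κ) trz where
  cont := by
    have h : Continuous fun z : RT =>
        (⟨(Complex.exp z.1.1, Complex.exp z.1.2), ee_mem z⟩ : R0) :=
      Continuous.subtype_mk (continuous_ee.comp continuous_subtype_val) _
    exact hκ.continuous.comp h
  op := by
    intro O hO
    have h1 : IsOpen (Subtype.val '' O) := isOpen_RT.isOpenMap_subtype_val _ hO
    have h2 : IsOpen (Prod.map Complex.exp Complex.exp '' (Subtype.val '' O)) :=
      (Complex.isOpenMap_exp.prodMap Complex.isOpenMap_exp) _ h1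
    have h3 : qR κ '' O = R0.domRestrict κ ''
        (Subtype.val ⁻¹' (Prod.map Complex.exp Complex.exp '' (Subtype.val '' O))) := by
      ext w
      constructor
      · rintro ⟨z, hz, rfl⟩
        exact ⟨⟨_, ee_mem z⟩, ⟨z.1, ⟨z, hz, rfl⟩, rfl⟩, rfl⟩
      · rintro ⟨⟨y, hy⟩, ⟨_, ⟨z, hz, rfl⟩, hzy⟩, rfl⟩
        refine ⟨z, hz, ?_⟩
        change κ _ = κ y
        rw [show y = _ from hzy.symm]
        rfl
    rw [h3]
    exact hκ.isOpenMap _ (h2.preimage continuous_subtype_val)
  τc := by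
    intro g
    refine Continuous.subtype_mk ?_ _
    exact ((continuous_fst.comp continuous_subtype_val).add continuous_const).prodMk
      ((continuous_snd.comp continuous_subtype_val).add continuous_const)
  τ0 := by
    intro a
    apply Subtype.ext
    simp [trz]
  τadd := by
    intro g h a
    apply Subtype.ext
    simp only [trz, Prod.fst_add, Prod.snd_add]
    push_cast
    refine Prod.ext ?_ ?_ <;> simp only <;> ring
  eq_iff := by
    intro a c
    have h : qR κ a = qR κ c ↔ (Complex.exp a.1.1, Complex.exp a.1.2) =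
        (Complex.exp c.1.1, Complex.exp c.1.2) := by
      constructor
      · intro h
        have := hκ.injective (a₁ := ⟨_, ee_mem a⟩) (a₂ := ⟨_, ee_mem c⟩) h
        exact congrArg Subtype.val this
      · intro h
        change κ _ = κ _
        rw [h]
    rw [h, Prod.ext_iff]
    simp only
    rw [eq_comm, Complex.exp_eq_exp_iff_exists_int, eq_comm (a := Complex.exp a.1.2),
      Complex.exp_eq_exp_iff_exists_int]
    constructor
    · rintro ⟨⟨m, hm⟩, ⟨n, hn⟩⟩
      exact ⟨(m, n), Subtype.ext (Prod.ext hm hn)⟩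
    · rintro ⟨g, rfl⟩
      exact ⟨⟨g.1, rfl⟩, ⟨g.2, rfl⟩⟩

end Vale.Agent.P300.H844
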