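import Vale.Agent.P300.H844.Reg
import Vale.Agent.P300.H142.Kap
import Vale.Agent.P300.H753.Dom

/-!
# P300, block [LM]: the region of the node table is open, contractive, and its logarithmic cover is
contractible
-/

open Set Topology Function Filter

namespace Vale.Agent.P300.H844

theorem mem_Ray_iff {z : ℂ} : z ∈ Ray ↔ ∃ t : ℝ, 1 ≤ t ∧ z = t := by
  constructor
  · rintro ⟨h1, h2⟩
    exact ⟨z.re, h1, Complex.ext (by simp) (by simpa using h2)⟩
  · rintro ⟨t, ht, rfl⟩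
    exact ⟨by simpa using ht, by simp⟩

theorem R_eq : H142.R = RR := by
  ext w
  simp only [H142.R, RR, mem_ofPred_eq, mem_Ray_iff, not_exists, not_and]
  constructor
  · intro h
    exact ⟨fun t ht => (h t ht).1, fun t ht => (h t ht).2.1, fun t ht => (h t ht).2.2⟩
  · rintro ⟨h1, h2, h3⟩ t ht
    exact ⟨h1 t ht, h2 t ht, h3 t ht⟩

theorem isOpen_R : IsOpen H142.R := R_eq ▸ isOpen_RR

theorem zero_mem_R : ((0, 0) : ℂ × ℂ) ∈ H142.R := R_eq ▸ zero_mem_RR

theorem contr_R : H753.Contr H142.R := by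
  intro x hx c d hc hc1 hd hd1
  rw [R_eq] at hx ⊢
  exact RR_smul hc hc1 hd hd1 hx

theorem Rt_eq : H142.Rt = RT := by
  unfold H142.Rt RT
  rw [R_eq]

theorem Rt_eq' : H142.Rt = H753.Rt H142.R := rfl

theorem isOpen_Rt : IsOpen H142.Rt := Rt_eq ▸ isOpen_RT

theorem mem_Rt {z : ℂ × ℂ} (h1 : z.1.re < 0) (h2 : z.2.re < 0) : z ∈ H142.Rt :=
  Rt_eq ▸ mem_RT h1 h2

theorem Rt_sub {z : ℂ × ℂ} (hz : z ∈ H142.Rt) {s t : ℝ} (hs : 0 ≤ s) (ht : 0 ≤ t) :
    (z.1 - s, z.2 - t) ∈ H142.Rt := by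
  rw [Rt_eq] at hz ⊢
  exact RT_sub hz hs ht

instance contractible_Rt : ContractibleSpace H142.Rt := by
  rw [Rt_eq]
  infer_instance

instance simplyConnected_Rt : SimplyConnectedSpace H142.Rt :=
  SimplyConnectedSpace.ofContractible _

instance locallyPathConnected_Rt : LocallyPathConnectedSpace H142.Rt :=
  isOpen_Rt.locallyPathConnectedSpace

end Vale.Agent.P300.H844
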