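import Vale.Agent.P300.Spec.Geo
import Vale.Agent.P300.TOR.Spec

/-!
# P300: `NODE.TorData` from `Spec.NodeSpec` (helper844)
-/

open Set Topology Filter Complex

namespace Vale.Agent.P300.XSide

variable {G : Type} [Group G]

theorem kap_eq_kapE (ν : Fin 16) (w : ℂ × ℂ) : NODE.kap ν w = Spec.kapE ν w := by
  unfold NODE.kap Spec.kapE
  split_ifs <;> rfl

theorem conj_kap (ν : Fin 15) (u v : ℝ) :
    (starRingEnd ℂ) (H142.kap ν (u, v)).1 = (H142.kap ν (u, v)).1 ∧
      (starRingEnd ℂ) (H142.kap ν (u, v)).2 = (H142.kap ν (u, v)).2 := by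
  fin_cases ν <;> constructor <;> simp [H142.kap]

theorem conj_kapX (u v : ℝ) :
    (starRingEnd ℂ) (H142.kapX (u, v)).1 = (H142.kapX (u, v)).1 ∧
      (starRingEnd ℂ) (H142.kapX (u, v)).2 = (H142.kapX (u, v)).2 := by
  constructor <;> simp [H142.kapX]

theorem conj_kapE (ν : Fin 16) (u v : ℝ) :
    (starRingEnd ℂ) (Spec.kapE ν (u, v)).1 = (Spec.kapE ν (u, v)).1 ∧
      (starRingEnd ℂ) (Spec.kapE ν (u, v)).2 = (Spec.kapE ν (u, v)).2 :=
  Spec.kapE_cases (P := fun κ => (starRingEnd ℂ) (κ (u, v)).1 = (κ (u, v)).1 ∧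
    (starRingEnd ℂ) (κ (u, v)).2 = (κ (u, v)).2) (fun ν => conj_kap ν u v) (conj_kapX u v) ν

theorem im_kapE (ν : Fin 16) (u v : ℝ) :
    (Spec.kapE ν (u, v)).1.im = 0 ∧ (Spec.kapE ν (u, v)).2.im = 0 :=
  ⟨Complex.conj_eq_iff_im.1 (conj_kapE ν u v).1, Complex.conj_eq_iff_im.1 (conj_kapE ν u v).2⟩

/-- two chambers with a common real point are equal -/
theorem ch_unique {C C' : TOR.Ch} {z : ℂ × ℂ} (h1 : z.1.im = 0) (h2 : z.2.im = 0) (h : z ∈ C.A)
    (h' : z ∈ C'.A) : C = C' := by
  have hX := TOR.pc_unique (h.1 h1) (h'.1 h1)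
  have hL := TOR.pc_unique (h.2.1 h2) (h'.2.1 h2)
  have hs := TOR.sd_unique (h.2.2 (h1.trans h2.symm)) (h'.2.2 (h1.trans h2.symm))
  cases C
  cases C'
  simp only at hX hL hs
  subst hX hL hs
  rfl

theorem exp_log_pos {u : ℝ} (hu : 0 < u) : exp (Real.log u : ℂ) = (u : ℂ) := by
  rw [← Complex.ofReal_exp, Real.exp_log hu]

/-- helper150's interface from helper210's. -/
noncomputable def torOf (r : TOR.Arr G) (h : Spec.NodeSpec r) : NODE.TorData (Spec.toA r) where
  Tot F _ :=
    letI : TopologicalSpace F := ⊥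
    haveI : DiscreteTopology F := ⟨rfl⟩
    r.Tot F
  top F _ :=
    letI : TopologicalSpace F := ⊥
    haveI : DiscreteTopology F := ⟨rfl⟩
    inferInstance
  pr F _ :=
    letI : TopologicalSpace F := ⊥
    haveI : DiscreteTopology F := ⟨rfl⟩
    r.pr
  cov F _ :=
    letI : TopologicalSpace F := ⊥
    haveI : DiscreteTopology F := ⟨rfl⟩
    r.isCoveringMap_pr
  surj F _ hF := by
    letI : TopologicalSpace F := ⊥
    haveI : DiscreteTopology F := ⟨rfl⟩
    intro z
    obtain ⟨C, hC⟩ := TOR.exists_ch z.2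
    exact ⟨r.pt C z hF.some, r.pr_pt hC _⟩
  t2 F _ :=
    letI : TopologicalSpace F := ⊥
    haveI : DiscreteTopology F := ⟨rfl⟩
    inferInstance
  lpc F _ :=
    letI : TopologicalSpace F := ⊥
    haveI : DiscreteTopology F := ⟨rfl⟩
    inferInstance
  sc F _ _ :=
    letI : TopologicalSpace F := ⊥
    haveI : DiscreteTopology F := ⟨rfl⟩
    inferInstance
  map {F F'} _ _ f :=
    letI : TopologicalSpace F := ⊥
    haveI : DiscreteTopology F := ⟨rfl⟩
    letI : TopologicalSpace F' := ⊥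
    haveI : DiscreteTopology F' := ⟨rfl⟩
    r.map f
  map_cont {F F'} _ _ f :=
    letI : TopologicalSpace F := ⊥
    haveI : DiscreteTopology F := ⟨rfl⟩
    letI : TopologicalSpace F' := ⊥
    haveI : DiscreteTopology F' := ⟨rfl⟩
    r.continuous_map (fun g s => map_smul f g s)
  map_cov {F F'} _ _ f :=
    letI : TopologicalSpace F := ⊥
    haveI : DiscreteTopology F := ⟨rfl⟩
    letI : TopologicalSpace F' := ⊥
    haveI : DiscreteTopology F' := ⟨rfl⟩
    r.isCoveringMap_map (fun g s => map_smul f g s)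
  map_pr {F F'} _ _ f y := rfl
  map_id F _ y := rfl
  map_comp f g y := rfl
  L ν F _ z s :=
    letI : TopologicalSpace F := ⊥
    haveI : DiscreteTopology F := ⟨rfl⟩
    (Spec.lifts h ν).L F z s
  L_cont ν F _ s :=
    letI : TopologicalSpace F := ⊥
    haveI : DiscreteTopology F := ⟨rfl⟩
    (Spec.lifts h ν).cont F s
  L_pr ν F _ s z hz := by
    letI : TopologicalSpace F := ⊥
    haveI : DiscreteTopology F := ⟨rfl⟩
    rw [kap_eq_kapE]
    exact (Spec.lifts h ν).pr F s z hz
  L_inj ν F _ s s' z hz hss :=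
    letI : TopologicalSpace F := ⊥
    haveI : DiscreteTopology F := ⟨rfl⟩
    (Spec.lifts h ν).inj F z hz hss
  L_surj ν F _ z hz y hy := by
    letI : TopologicalSpace F := ⊥
    haveI : DiscreteTopology F := ⟨rfl⟩
    rw [kap_eq_kapE] at hy
    exact (Spec.lifts h ν).surj F z hz y hy
  L_u ν F _ s z hz :=
    letI : TopologicalSpace F := ⊥
    haveI : DiscreteTopology F := ⟨rfl⟩
    (Spec.lifts h ν).u F s z hz
  L_v ν F _ s z hz :=
    letI : TopologicalSpace F := ⊥
    haveI : DiscreteTopology F := ⟨rfl⟩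
    (Spec.lifts h ν).v F s z hz
  L_map ν {F F'} _ _ f s z hz :=
    letI : TopologicalSpace F := ⊥
    haveI : DiscreteTopology F := ⟨rfl⟩
    letI : TopologicalSpace F' := ⊥
    haveI : DiscreteTopology F' := ⟨rfl⟩
    (Spec.lifts h ν).map F F' f (fun g s => map_smul f g s) z hz s
  base ν ν' F _ s u v u' v' hu hu1 hv hv1 hu' hu1' hv' hv1' hk := by
    letI : TopologicalSpace F := ⊥
    haveI : DiscreteTopology F := ⟨rfl⟩
    obtain ⟨a1, a2⟩ := (Spec.lifts h ν).base F s (Real.log u) (Real.log v)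
      (Real.log_neg hu hu1) (Real.log_neg hv hv1)
    obtain ⟨b1, b2⟩ := (Spec.lifts h ν').base F s (Real.log u') (Real.log v')
      (Real.log_neg hu' hu1') (Real.log_neg hv' hv1')
    rw [kap_eq_kapE, kap_eq_kapE] at hk
    rw [exp_log_pos hu, exp_log_pos hv] at a1
    rw [exp_log_pos hu', exp_log_pos hv'] at b1
    have hR : ∀ {x y : ℝ}, 0 < x → x < 1 → 0 < y → y < 1 →
        ((Real.log x : ℂ), (Real.log y : ℂ)) ∈ H142.Rt := by
      intro x y hx hx1 hy hy1
      show (exp (Real.log x : ℂ), exp (Real.log y : ℂ)) ∈ H142.R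
      rw [exp_log_pos hx, exp_log_pos hy]
      intro t ht
      refine ⟨fun he => ?_, fun he => ?_, fun he => ?_⟩
      · have he' : (x : ℂ) = t := he
        have he2 : x = t := by exact_mod_cast he'
        linarith
      · have he' : (y : ℂ) = t := he
        have he2 : y = t := by exact_mod_cast he'
        linarith
      · have he' : (x : ℂ) * y = t := he
        have he2 : x * y = t := by exact_mod_cast he'
        nlinarith
    have hp := (Spec.lifts h ν).pr F s _ (hR hu hu1 hv hv1)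
    have hp' := (Spec.lifts h ν').pr F s _ (hR hu' hu1' hv' hv1')
    simp only [exp_log_pos hu, exp_log_pos hv] at hp
    simp only [exp_log_pos hu', exp_log_pos hv'] at hp'
    have hC : Spec.cham ν = Spec.cham ν' :=
      ch_unique (im_kapE ν u v).1 (im_kapE ν u v).2 a1 (hk ▸ b1)
    refine r.ext_crd (C := Spec.cham ν) ?_ ?_ ?_
    · exact Subtype.ext (hp.trans (hk.trans hp'.symm))
    · rw [hp]
      exact a1
    · rw [a2, hC, b2]
  conn hc F _ ht hF := by
    letI : TopologicalSpace F := ⊥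
    haveI : DiscreteTopology F := ⟨rfl⟩
    haveI := r.pathConnectedSpace_tot (S := F) (fun s t => by
      obtain ⟨g, hg⟩ := ht.exists_smul_eq s t
      refine ⟨g, ?_, hg⟩
      have : Subgroup.closure r.gens = ⊤ := hc
      rw [this]
      trivial)
    infer_instance

/-- helper148's structure as helper37's. -/
def ofA (A : Tor.Arr G) : TOR.Arr G where
  c1 := A.c1
  c2 := A.c2
  c3 := A.c3
  T0 := A.T0
  T1 := A.T1
  h01 := A.r01
  h02 := A.r02
  h03 := mul_inv_eq_iff_eq_mul.1 A.r03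
  h11 := mul_inv_eq_iff_eq_mul.1 A.r11
  h12 := A.r12
  h13 := A.r13

theorem toA_ofA (A : Tor.Arr G) : Spec.toA (ofA A) = A := rfl

/-- **The value of helper150's interface**, from the sixteen lift families. -/
noncomputable def torData (A : Tor.Arr G) (h : Spec.NodeSpec (ofA A)) : NODE.TorData A :=
  torOf (ofA A) h

end Vale.Agent.P300.XSide
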