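import Vale.Agent.P300.H844.RegK
import Vale.Agent.P300.Spec.Kap142
import Vale.Agent.P300.TOR.Lift
import Vale.Agent.P300.H753.Fin

/-!
# P300, X side, part 1: the lifts over the node regions

For a chart `κ : W → U` of the node table, the lift family over the logarithmic region `Rt` in the
covering `r.Tot F → U`, from the deck rules at one point.
-/

open Set Topology Filter Complex
open Vale.Agent.P300.H142 (R Rt W U)

namespace Vale.Agent.P300.XSide

/-- `M_{0,5}` as a type. -/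
abbrev UT : Type := TOR.Arr.UT

/-- a chart of the node table -/
structure IsChart (κ : ℂ × ℂ → ℂ × ℂ) (κ' : ℂ × ℂ → ℂ × ℂ) : Prop where
  maps : ∀ w ∈ W, κ w ∈ U
  maps' : ∀ z ∈ U, κ' z ∈ W
  left : ∀ w ∈ W, κ' (κ w) = w
  right : ∀ z ∈ U, κ (κ' z) = z
  cont : ContinuousOn κ W
  cont' : ContinuousOn κ' U

theorem isChart_kap (ν : Fin 15) : IsChart (H142.kap ν) (Spec.kapInv ν) where
  maps _ h := Spec.kap_mem ν h
  maps' _ h := Spec.kapInv_mem ν h
  left _ h := Spec.kapInv_kap ν h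
  right _ h := Spec.kap_kapInv ν h
  cont _ h := (Spec.analyticAt_kap ν h).continuousAt.continuousWithinAt
  cont' _ h := (Spec.analyticAt_kapInv ν h).continuousAt.continuousWithinAt

theorem isChart_kapX : IsChart H142.kapX Spec.kapXInv where
  maps _ h := Spec.kapX_mem h
  maps' _ h := Spec.kapXInv_mem h
  left _ h := Spec.kapXInv_kapX h
  right _ h := Spec.kapX_kapXInv h
  cont _ h := (Spec.analyticAt_kapX h).continuousAt.continuousWithinAt
  cont' _ h := (Spec.analyticAt_kapXInv h).continuousAt.continuousWithinAt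

theorem two_three_mem : ((2 : ℂ), (3 : ℂ)) ∈ U := by
  refine ⟨?_, ?_, ?_, ?_, ?_⟩ <;> norm_num

open Classical in
/-- the chart with values in the type `UT` -/
noncomputable def kU (κ : ℂ × ℂ → ℂ × ℂ) (w : ℂ × ℂ) : UT :=
  if h : κ w ∈ U then ⟨κ w, h⟩ else ⟨(2, 3), two_three_mem⟩

theorem kU_val {κ κ' : ℂ × ℂ → ℂ × ℂ} (hκ : IsChart κ κ') {w : ℂ × ℂ} (hw : w ∈ W) :
    ((kU κ w : UT) : ℂ × ℂ) = κ w := by
  unfold kU
  rw [dif_pos (hκ.maps w hw)]

theorem Rp_subset_W : H753.Rp R ⊆ W := fun _ hw =>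
  Spec.mem_W_of_mem_R hw.1 hw.2.1 hw.2.2

theorem continuousOn_kU {κ κ' : ℂ × ℂ → ℂ × ℂ} (hκ : IsChart κ κ') : ContinuousOn (kU κ) W := by
  rw [Topology.IsInducing.subtypeVal.continuousOn_iff]
  exact hκ.cont.congr fun w hw => kU_val hκ hw

theorem kU_injOn {κ κ' : ℂ × ℂ → ℂ × ℂ} (hκ : IsChart κ κ') : InjOn (kU κ) W := by
  intro w hw w' hw' h
  have h1 := congrArg (Subtype.val : UT → ℂ × ℂ) h
  rw [kU_val hκ hw, kU_val hκ hw'] at h1
  rw [← hκ.left w hw, h1, hκ.left w' hw']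

theorem kU_open {κ κ' : ℂ × ℂ → ℂ × ℂ} (hκ : IsChart κ κ') {V : Set (ℂ × ℂ)} (hVW : V ⊆ W)
    (hV : IsOpen V) : IsOpen (kU κ '' V) := by
  have h1 : IsOpen (U ∩ κ' ⁻¹' V) := hκ.cont'.isOpen_inter_preimage Spec.isOpen_U hV
  have h2 : kU κ '' V = Subtype.val ⁻¹' (U ∩ κ' ⁻¹' V) := by
    ext z
    constructor
    · rintro ⟨w, hw, rfl⟩
      refine ⟨(kU κ w).2, ?_⟩
      show κ' (kU κ w : UT) ∈ V
      rw [kU_val hκ (hVW hw), hκ.left w (hVW hw)]
      exact hw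
    · rintro ⟨hz, hzV⟩
      refine ⟨κ' z, hzV, Subtype.ext ?_⟩
      rw [kU_val hκ (hκ.maps' _ hz), hκ.right _ hz]
  rw [h2]
  exact h1.preimage continuous_subtype_val

/-- the uniformization of the punctured region -/
noncomputable def phi {κ κ' : ℂ × ℂ → ℂ × ℂ} (hκ : IsChart κ κ') : C(Rt, UT) :=
  ⟨fun z => kU κ (exp z.1.1, exp z.1.2), by
    refine (continuousOn_kU hκ).comp_continuous ?_ fun z => Spec.exp_mem_W z.2
    exact H844.continuous_ee.comp continuous_subtype_val⟩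

theorem phi_val {κ κ' : ℂ × ℂ → ℂ × ℂ} (hκ : IsChart κ κ') (z : Rt) :
    ((phi hκ z : UT) : ℂ × ℂ) = κ (exp z.1.1, exp z.1.2) := kU_val hκ (Spec.exp_mem_W z.2)

theorem exp_shift (z : ℂ) : exp (z + 2 * Real.pi * I) = exp z := Complex.exp_periodic z

theorem Rt_u {z : ℂ × ℂ} (hz : z ∈ Rt) : (z.1 + 2 * Real.pi * I, z.2) ∈ Rt := by
  show (exp _, exp _) ∈ R
  rw [exp_shift]
  exact hz

theorem Rt_v {z : ℂ × ℂ} (hz : z ∈ Rt) : (z.1, z.2 + 2 * Real.pi * I) ∈ Rt := by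
  show (exp _, exp _) ∈ R
  rw [exp_shift]
  exact hz

/-- translation of the first coordinate -/
noncomputable def tu (z : Rt) : Rt := ⟨(z.1.1 + 2 * Real.pi * I, z.1.2), Rt_u z.2⟩

/-- translation of the second coordinate -/
noncomputable def tv (z : Rt) : Rt := ⟨(z.1.1, z.1.2 + 2 * Real.pi * I), Rt_v z.2⟩

theorem continuous_tu : Continuous tu := by
  refine Continuous.subtype_mk ?_ _
  fun_prop

theorem continuous_tv : Continuous tv := by
  refine Continuous.subtype_mk ?_ _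
  fun_prop

section

variable {G : Type*} [Group G] (r : TOR.Arr G) {κ κ' : ℂ × ℂ → ℂ × ℂ} (hκ : IsChart κ κ')
  (z₀ : Rt) {C₀ : TOR.Ch} (h₀ : ((phi hκ z₀ : UT) : ℂ × ℂ) ∈ C₀.A)
  {F : Type*} [MulAction G F] [TopologicalSpace F] [DiscreteTopology F]

open Classical in
/-- the lift family -/
noncomputable def LL (z w : ℂ) (s : F) : r.Tot F :=
  if h : (z, w) ∈ Rt then r.lift (phi hκ) z₀ h₀ s ⟨(z, w), h⟩ else r.lift (phi hκ) z₀ h₀ s z₀

theorem LL_eq {z : ℂ × ℂ} (hz : z ∈ Rt) (s : F) :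
    LL r hκ z₀ h₀ z.1 z.2 s = r.lift (phi hκ) z₀ h₀ s ⟨z, hz⟩ := dif_pos hz

/-- The deck rules at the base point (block NODE). -/
structure NodeRule (F : Type*) [MulAction G F] [TopologicalSpace F] [DiscreteTopology F]
    (a b : G) : Prop where
  u : ∀ s : F, r.crd C₀ (r.lift (phi hκ) z₀ h₀ s (tu z₀)) = a • s
  v : ∀ s : F, r.crd C₀ (r.lift (phi hκ) z₀ h₀ s (tv z₀)) = b • s

variable {r hκ z₀ h₀} {a b : G} (N : NodeRule r hκ z₀ h₀ F a b)
include N

theorem NodeRule.lift_u (s : F) (z : Rt) :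
    r.lift (phi hκ) z₀ h₀ s (tu z) = r.lift (phi hκ) z₀ h₀ (a • s) z := by
  have h := r.lift_unique (phi hκ) z₀ h₀
    ⟨fun z => r.lift (phi hκ) z₀ h₀ s (tu z), (map_continuous _).comp continuous_tu⟩
    (fun z => by
      show r.pr (r.lift (phi hκ) z₀ h₀ s (tu z)) = _
      rw [r.lift_pr]
      apply Subtype.ext
      rw [phi_val, phi_val]
      show κ (exp (z.1.1 + 2 * Real.pi * I), exp z.1.2) = _
      rw [exp_shift])
  have h2 := congrArg (fun F : C(Rt, r.Tot _) => F z) h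
  simp only [ContinuousMap.coe_mk] at h2
  rw [h2, N.u]

theorem NodeRule.lift_v (s : F) (z : Rt) :
    r.lift (phi hκ) z₀ h₀ s (tv z) = r.lift (phi hκ) z₀ h₀ (b • s) z := by
  have h := r.lift_unique (phi hκ) z₀ h₀
    ⟨fun z => r.lift (phi hκ) z₀ h₀ s (tv z), (map_continuous _).comp continuous_tv⟩
    (fun z => by
      show r.pr (r.lift (phi hκ) z₀ h₀ s (tv z)) = _
      rw [r.lift_pr]
      apply Subtype.ext
      rw [phi_val, phi_val]
      show κ (exp z.1.1, exp (z.1.2 + 2 * Real.pi * I)) = _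
      rw [exp_shift])
  have h2 := congrArg (fun F : C(Rt, r.Tot _) => F z) h
  simp only [ContinuousMap.coe_mk] at h2
  rw [h2, N.v]

theorem NodeRule.comm (s : F) : a • b • s = b • a • s := by
  have h1 : tu (tv z₀) = tv (tu z₀) := rfl
  have h2 := N.lift_u s (tv z₀)
  rw [h1, N.lift_v, N.lift_v (a • s)] at h2
  have h3 : r.crd C₀ (r.lift (phi hκ) z₀ h₀ (b • s) (tu z₀)) =
      r.crd C₀ (r.lift (phi hκ) z₀ h₀ (b • a • s) z₀) := congrArg _ h2
  rwa [N.u, r.lift_base] at h3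

/-- **The node of helper753.** -/
theorem NodeRule.node : H753.Node R r.pr (kU κ) (MulAction.toPerm a : Equiv.Perm F)
    (MulAction.toPerm b) (LL r hκ z₀ h₀) where
  opR := Spec.isOpen_R
  kinj := (kU_injOn hκ).mono Rp_subset_W
  kopen V hV hVo := kU_open hκ (hV.trans Rp_subset_W) hVo
  loc := r.isCoveringMap_pr.isLocalHomeomorph
  comm := by
    apply Equiv.ext
    intro s
    exact N.comm s
  Lcont s := by
    rw [continuousOn_iff_continuous_domRestrict]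
    refine (map_continuous (r.lift (phi hκ) z₀ h₀ s)).congr fun z => ?_
    exact (LL_eq r hκ z₀ h₀ z.2 s).symm
  Lpr z hz s := by
    have hz' : z ∈ Rt := hz
    rw [LL_eq r hκ z₀ h₀ hz', r.lift_pr]
    rfl
  La z hz s := by
    have hz' : z ∈ Rt := hz
    rw [LL_eq r hκ z₀ h₀ hz', LL_eq r hκ z₀ h₀ (z := (z.1 + 2 * Real.pi * I, z.2)) (Rt_u hz')]
    exact N.lift_u s ⟨z, hz'⟩
  Lb z hz s := by
    have hz' : z ∈ Rt := hz
    rw [LL_eq r hκ z₀ h₀ hz', LL_eq r hκ z₀ h₀ (z := (z.1, z.2 + 2 * Real.pi * I)) (Rt_v hz')]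
    exact N.lift_v s ⟨z, hz'⟩
  Linj z hz s s' h := by
    have hz' : z ∈ Rt := hz
    rw [LL_eq r hκ z₀ h₀ hz', LL_eq r hκ z₀ h₀ hz'] at h
    exact r.lift_injective (phi hκ) z₀ h₀ _ h
  Lsurj z hz y hy := by
    have hz' : z ∈ Rt := hz
    obtain ⟨s, hs⟩ := r.lift_surjective (phi hκ) z₀ h₀ (a := ⟨z, hz'⟩) (p := y) hy
    exact ⟨s, by rw [LL_eq r hκ z₀ h₀ hz', hs]⟩

omit N in
/-- Naturality of the lift family. -/
theorem LL_map {F' : Type*} [MulAction G F'] [TopologicalSpace F'] [DiscreteTopology F']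
    {f : F → F'} (hf : ∀ (g : G) (s : F), f (g • s) = g • f s) (z w : ℂ) (s : F) :
    r.map f (LL r hκ z₀ h₀ z w s) = LL r hκ z₀ h₀ z w (f s) := by
  unfold LL
  split_ifs
  · exact r.map_lift (phi hκ) z₀ h₀ hf s _
  · exact r.map_lift (phi hκ) z₀ h₀ hf s _

end

end Vale.Agent.P300.XSide
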